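import Vale.Agent.P092.H21.P.RowP
import Vale.Agent.P092.SPT.LegT
import Vale.Agent.P092.SPT.Flip
import Vale.Agent.P092.SP.Ex
import Vale.Agent.P092.H458.T.Hon

/-!
P092 (helper21), TEAM P, all `t`: the first leg of the concrete picture over an admissible source
group `E` of `Sp_4(k)`, all amplifications, and `SP.X.ExStmtT` from the spectral gap of the walls.
-/

set_option linter.all false

open scoped InnerProductSpace ENNReal LinearAlgebra.Projectivization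
open Filter Topology ContinuousLinearMap MeasureTheory TopologicalSpace

namespace Vale.Agent.P092.H21.P

open Vale.Agent.P092.H160 Vale.Agent.P092.SR
open Vale.Agent.P092.RC (PG YY y0 PicF adjV3)
open Vale.Agent.P092.SP (B1 B2 Adm Lg Sh' nc_E ph_lift fin_lift inj_lift prox1_lift prox2_lift
  nis_lift1 nis_lift2 nis1_sub nis2_sub GapStmt)
open Vale.Agent.P092.SP4
open Vale.Agent.P092.SP.X (PBF HasLegF ORBF legF_of WallInF ExHalfT ExStmtT exT_of_half)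
open Vale.Agent.P092.H933 (LeviGap LocK)
open Vale.Agent.P092.H859.CL (st)
open Vale.Agent.P092.H103 (AF)
open Vale.Agent.P092.H34.Ind (Xset)
open Vale.Agent.P092.H71.P (r1 r2 Sh'_cont Lg_cont adm_proper spr1_sh' spr1_lg spr2_lg₀ spr2_sh'₀)
open Vale.Agent.P092.H962 (HH PT V3 A3R B3R)

section conc

variable {k : Type} [NontriviallyNormedField k] [ProperSpace k] [MeasurableSpace k] [BorelSpace k]
  {μ : Measure k} [μ.IsAddHaarMeasure]
  {E : Type} [Group E] [TopologicalSpace E] [IsTopologicalGroup E] [LocallyCompactSpace E]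
  [SecondCountableTopology E] [T2Space E] [MeasurableSpace E] [BorelSpace E]
  {Γ : Subgroup E} [DiscreteTopology Γ] [Countable Γ] [MeasurableSpace (E ⧸ Γ)]
  [BorelSpace (E ⧸ Γ)] {ν : Measure (E ⧸ Γ)} [IsProbabilityMeasure ν]
  (hν : ∀ g : E, ν.map (fun x => g • x) = ν)
  (hΓ : ∀ g : Γ, g ≠ 1 → Set.Infinite {y : Γ | ∃ h, y = h * g * h⁻¹})
  {Λ : Type} [Group Λ] [Countable Λ]
  (hΛ : ∀ s : Λ, s ≠ 1 → Set.Infinite {y : Λ | ∃ h, y = h * s * h⁻¹})
  {I : Type} [Fintype I] {α : Γ → (Ell2 (I × Λ) →L[ℂ] Ell2 (I × Λ))} (hα : AF α)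
  {κ : Type} [Fintype κ] {ξ : κ → HH (PT α α α)}
  (hT : Tri (V3 hα hα hα) (A3R hα hα hα) (B3R hα hα hα) ξ)
  (hh : Hon (A3R hα hα hα) (B3R hα hα hα) ξ)
  {ι : S4 k →* E} {a : E →* PG k 4} {q : Γ → S4 k} {w : kˣ}

include hT in
theorem orb_HH' (h : Adm ι a) {b : S4 k} {n : k → S4 k} {ρ : ℝ} (h0 : 0 < ρ) (h1 : ρ < 1)
    (hn : Continuous n) (hs : H368.SN.Spr μ (ι b) (fun s => ι (n s)) ρ) :
    ORBF μ ι (H34.Ind.pi (H85.cdat ν hν) (V := V3 hα hα hα) (adjV3 hα))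
      (H34.Ind.lam (H85.cdat ν hν) (A3R hα hα hα))
      (Xset (H85.cdat ν hν) (HH (PT α α α)) ∪
        Set.range (H34.Ind.lam (H85.cdat ν hν) (B3R hα hα hα)))
      (H34.AmpE.nrm hν ξ) b n :=
  ⟨ρ, h0, h1, H958.orb_HH (μ := μ) hν hα hα hα (h.cι.comp hn) hs hT⟩

include hΓ hΛ hh in
/-- **The base record of the first leg, all `t`.** -/
theorem pbf_HH (h : Adm ι a) (hw : ‖(w : k)‖ < 1) {𝒰 : Ultrafilter ℕ}
    (h𝒰 : (𝒰 : Filter ℕ) ≤ atTop) (g1 : LeviGap (ι (B1 w))) (g2 : LeviGap (ι (B2 w)))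
    (hq : ∀ γ, ι (q γ) = γ) :
    PBF μ w 𝒰 ι a (H34.Ind.pi (H85.cdat ν hν) (V := V3 hα hα hα) (adjV3 hα))
      (H34.Ind.lam (H85.cdat ν hν) (A3R hα hα hα))
      (Xset (H85.cdat ν hν) (HH (PT α α α)) ∪
        Set.range (H34.Ind.lam (H85.cdat ν hν) (B3R hα hα hα)))
      (H34.AmpE.nrm hν ξ) (st (mT (H85.cdat ν hν) hT)) q := by
  haveI := nc_E h
  have hph := ph_lift h hq
  have hfin := fin_lift h hq
  exact
    { adm := h
      hw := hw
      h𝒰 := h𝒰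
      pic := pic_HH hν hΓ hΛ hα hT
      ms := ms_HH hν hΓ hΛ hα hT hh
      uc := uc_HH hν hα hT
      ph := hph
      fin := hfin
      ud := H899.T.ud_of_fin hph hfin
      orb1 := orb_HH' hν hα hT h (r1 w hw).1 (r1 w hw).2 Sh'_cont (spr1_sh' (adm_proper h) w)
      orb1' := orb_HH' hν hα hT h (r2 w hw).1 (r2 w hw).2 Lg_cont (spr1_lg (adm_proper h) w)
      orb2 := orb_HH' hν hα hT h (r2 w hw).1 (r2 w hw).2 Lg_cont (spr2_lg₀ (adm_proper h) w)
      orb2' := orb_HH' hν hα hT h (r2 w hw).1 (r2 w hw).2 Sh'_cont (spr2_sh'₀ (adm_proper h) w)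
      size1 := size_HH hν hΓ hΛ hα hT hh hph g1
      size2 := size_HH hν hΓ hΛ hα hT hh hph g2
      prox1 := prox1_lift h hν hq
      prox2 := prox2_lift h hν hq
      nis1 := nis_lift1 h hν hq nis1_sub
      nis2 := nis_lift2 h hν hq nis2_sub }

include hΓ hΛ hh in
/-- **The first leg of the model, all `t`.** -/
theorem legF_HH (hk : LocK k) (h : Adm ι a) (hw : ‖(w : k)‖ < 1) {𝒰 : Ultrafilter ℕ}
    (h𝒰 : (𝒰 : Filter ℕ) ≤ atTop) (g1 : LeviGap (ι (B1 w))) (g2 : LeviGap (ι (B2 w)))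
    (hq : ∀ γ, ι (q γ) = γ) :
    HasLegF μ w 𝒰 ι a (H34.Ind.pi (H85.cdat ν hν) (V := V3 hα hα hα) (adjV3 hα))
      (H34.Ind.lam (H85.cdat ν hν) (A3R hα hα hα))
      (Xset (H85.cdat ν hν) (HH (PT α α α)) ∪
        Set.range (H34.Ind.lam (H85.cdat ν hν) (B3R hα hα hα)))
      (H34.AmpE.nrm hν ξ) (st (mT (H85.cdat ν hν) hT)) q := by
  obtain ⟨m', m'', ζ, h'⟩ := H962.exists_tri' hα hα hα hΛ
  have hb := pbf_HH (μ := μ) hν hΓ hΛ hα hT hh h hw h𝒰 g1 g2 hq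
  have w1 := wall1 hν hT hΓ h' hh h hk hw hb.ph hb.fin
  have w2 := wall2 hν hT hΓ h' hh h hk hw hb.ph hb.fin
  exact legF_of hb (leg_T (H85.cdat ν hν) hT hh hΓ h')
    (slow_T (H85.cdat ν hν) hT hΓ h' hh (H43.ccont_cdat ν hν))
    (loc2_T (H85.cdat ν hν) hT hΓ h' hh) ⟨w1.s12, w1.s21, w1.esc⟩ ⟨w2.s12, w2.s21, w2.esc⟩

end conc

/-- **[P-HALF-T].** -/
theorem exHalfT_of {k : Type} [NontriviallyNormedField k] [ProperSpace k] [MeasurableSpace k]
    [BorelSpace k] {μ : Measure k} [μ.IsAddHaarMeasure] {E : Type} [Group E] [TopologicalSpace E]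
    [IsTopologicalGroup E] [LocallyCompactSpace E] [SecondCountableTopology E] [T2Space E]
    {ι : S4 k →* E} {a : E →* PG k 4} (hk : LocK k) (h : Adm ι a) (hg : GapStmt k) :
    ExHalfT k μ ι a := by
  intro _ _ Γ _ _ _ _ ν _ hν hΓ hicc Λ _ _ hΛ I _ α hα
  obtain ⟨x, hx0, hx1⟩ := NormedField.exists_norm_lt_one k
  have hx : x ≠ 0 := norm_pos_iff.1 hx0
  have hw : ‖((Units.mk0 x hx : kˣ) : k)‖ < 1 := hx1
  have hq : ∀ γ : Γ, ι (Function.surjInv h.sur (γ : E)) = γ := fun γ =>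
    Function.surjInv_eq h.sur _
  obtain ⟨n, ξ, hT, hh⟩ := H458.Hon.hon hα hα hΛ
  exact ⟨Units.mk0 x hx, hyperfilter ℕ, Fin n, inferInstance, H34.AmpE.nrm hν ξ,
    st (mT (H85.cdat ν hν) hT), fun γ => Function.surjInv h.sur (γ : E),
    legF_HH hν hicc hΛ hα hT hh hk h hw Nat.hyperfilter_le_atTop
      (H684.Psp.leviGap_proper ι h.cι h.sur (hg _ hw).1)
      (H684.Psp.leviGap_proper ι h.cι h.sur (hg _ hw).2) hq, inj_lift h hq hicc⟩

/-- **[P-EX-T].** -/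
theorem exStmtT_of {k : Type} [NontriviallyNormedField k] [ProperSpace k] [MeasurableSpace k]
    [BorelSpace k] {μ : Measure k} [μ.IsAddHaarMeasure] {E : Type} [Group E] [TopologicalSpace E]
    [IsTopologicalGroup E] [LocallyCompactSpace E] [SecondCountableTopology E] [T2Space E]
    {ι : S4 k →* E} {a : E →* PG k 4} (hk : LocK k) (h : Adm ι a) (hg : GapStmt k) :
    ExStmtT k μ ι a := exT_of_half (exHalfT_of hk h hg)

end Vale.Agent.P092.H21.P
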