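import Vale.Agent.P092.H21.SrcT
import Vale.Agent.P092.H458.T.HalfE
import Vale.Agent.P092.H534.Sp.S4
import Vale.Agent.P092.H71.P.SizeSp
import Vale.Agent.P092.H421.GrT7
import Vale.Agent.P092.H958.OrbT
import Vale.Agent.P092.SP.ExS
import Vale.Agent.P092.H486.EngS
import Vale.Agent.P092.H962.C.PicT

/-!
P092 (helper21), TEAM P, all `t`: the inputs of one leg of the picture `L²(E/Γ; ℋ)` of a triple with
an honest family, `E` an admissible source group of `Sp_4(k)`: `SysF` for both walls and both orders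
of the gauges, `Esc`, growth, sizes.
-/

set_option linter.all false

open scoped InnerProductSpace ENNReal LinearAlgebra.Projectivization
open Filter Topology ContinuousLinearMap MeasureTheory TopologicalSpace

namespace Vale.Agent.P092.H21.P

open Vale.Agent.P092.H160 Vale.Agent.P092.H432 Vale.Agent.P092.SR
open Vale.Agent.P092.H132 (massX)
open Vale.Agent.P092.H538 (fst)
open Vale.Agent.P092.H790 (CData Ri baseL)
open Vale.Agent.P092.H859.CL (SysF Esc st BB pw)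
open Vale.Agent.P092.H701 (HChain)
open Vale.Agent.P092.H933 (LocK LeviGap)
open Vale.Agent.P092.SP4
open Vale.Agent.P092.SP (B1 B2 Adm PH nm Lg Sh')
open Vale.Agent.P092.RC (PG YY PicF adjV3)
open Vale.Agent.P092.H899.T (l1 l2)
open Vale.Agent.P092.H534.SpK (nrm_zpowersP form_of_tr hiso_of chains1 chains2)

section gen

variable {k : Type} [NontriviallyNormedField k] [ProperSpace k]
  {E : Type} [Group E] [TopologicalSpace E] [IsTopologicalGroup E] [LocallyCompactSpace E]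
  [SecondCountableTopology E] [T2Space E] [MeasurableSpace E] [BorelSpace E]
  {Γ : Subgroup E} [DiscreteTopology Γ] [MeasurableSpace (E ⧸ Γ)] [BorelSpace (E ⧸ Γ)]
  {ν : Measure (E ⧸ Γ)} [IsProbabilityMeasure ν] [Countable Γ]
  (hν : ∀ g : E, ν.map (fun x => g • x) = ν)
  {ℋ κ κ' : Type} [Fintype κ] [Fintype κ'] [NormedAddCommGroup ℋ] [InnerProductSpace ℂ ℋ]
  [CompleteSpace ℋ] {V R₁ R₂ : Γ →* (ℋ →L[ℂ] ℋ)} {ξ : κ → ℋ} {ξ' : κ' → ℋ}
  (hT : Tri V R₁ R₂ ξ)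
  (hΓ : ∀ g : Γ, g ≠ 1 → Set.Infinite {y : Γ | ∃ h, y = h * g * h⁻¹}) (hT' : Tri R₁ V R₂ ξ')
  (hh : Hon R₁ R₂ ξ)
  {ι : S4 k →* E} {a : E →* PG k 4} {q : Γ → S4 k}

include hΓ hT' in
/-- **`nrm`, any direction with the two chains, all `t`.** -/
theorem nrm4 {b : E} (hC : ∃ C : HChain E 2, ∀ n, C.b ⟨0, two_pos⟩ n = b ^ n)
    (hC' : ∃ C : HChain E 2, ∀ n, C.b ⟨0, two_pos⟩ n = b⁻¹ ^ n) (hk : LocK k) (hq : PH q)
    (fin : ∀ C : ℝ, {γ | nm (q γ) ≤ C}.Finite) {ε : ℝ} (hε : 0 < ε) :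
    ∃ r : ℝ, ∀ u ∈ Subgroup.zpowers b,
      massX (fst (baseL (H85.cdat ν hν).μ (Γ × Γ) κ)) (Ri (H85.cdat ν hν) (RT hT)) u
        (H553.ind fun g => g ∈ BB (fun γ => l1 (q γ)) (fun γ => l2 (q γ)) r) ≤ ε := by
  have hK : (J4 k)⁻¹.det ≠ 0 := by
    rw [Matrix.det_nonsing_inv, Ring.inverse_eq_inv']
    have h1 : (J4 k).det = 1 := (SP4.j4 (k := k)).2
    rw [h1]
    exact inv_ne_zero one_ne_zero
  have hJ : (J4 k).det ≠ 0 := by
    have h1 : (J4 k).det = 1 := (SP4.j4 (k := k)).2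
    rw [h1]
    exact one_ne_zero
  exact nrm_zpowersP Γ ν hν (arepT hT hΓ hT') (covFamT hT hT') (ET_lx hT hT') hC hC' hk le_rfl
    (q := fun γ => (q γ).1) hq (σ := RingHom.id k) (fun x => rfl) hK
    (fun γ => form_of_tr hJ (mem_S4'.1 (q γ).2)) (hiso_of (by norm_num) hK) fin hε

include hΓ hT' hh

/-- **`SysF` with the gauges `(l1, l2)`, all `t`.** -/
theorem sys12 {b : E} (hC : ∃ C : HChain E 2, ∀ n, C.b ⟨0, two_pos⟩ n = b ^ n)
    (hC' : ∃ C : HChain E 2, ∀ n, C.b ⟨0, two_pos⟩ n = b⁻¹ ^ n) (hk : LocK k) (hq : PH q)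
    (fin : ∀ C : ℝ, {γ | nm (q γ) ≤ C}.Finite) :
    SysF (mT (H85.cdat ν hν) hT) (fun g => H34.Ind.pi (H85.cdat ν hν) (V := V) hT.adjV g)
      (BdT (H85.cdat ν hν) hT) (msT (H85.cdat ν hν) hT) (Subgroup.zpowers b)
      (fun γ => l1 (q γ)) (fun γ => l2 (q γ)) :=
  sysF_T (H85.cdat ν hν) hT hΓ hT' hh (H899.T.gap_l hq) fun ε hε =>
    nrm4 hν hT hΓ hT' hC hC' hk hq fin hε

/-- **`SysF` with the gauges `(l2, l1)`, all `t`.** -/
theorem sys21 {b : E} (hC : ∃ C : HChain E 2, ∀ n, C.b ⟨0, two_pos⟩ n = b ^ n)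
    (hC' : ∃ C : HChain E 2, ∀ n, C.b ⟨0, two_pos⟩ n = b⁻¹ ^ n) (hk : LocK k) (hq : PH q)
    (fin : ∀ C : ℝ, {γ | nm (q γ) ≤ C}.Finite) :
    SysF (mT (H85.cdat ν hν) hT) (fun g => H34.Ind.pi (H85.cdat ν hν) (V := V) hT.adjV g)
      (BdT (H85.cdat ν hν) hT) (msT (H85.cdat ν hν) hT) (Subgroup.zpowers b)
      (fun γ => l2 (q γ)) (fun γ => l1 (q γ)) := by
  refine sysF_T (H85.cdat ν hν) hT hΓ hT' hh (fun s u => ?_) fun ε hε => ?_
  · obtain ⟨C, hC⟩ := H899.T.gap_l hq s u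
    exact ⟨C, fun x => ⟨(hC x).2, (hC x).1⟩⟩
  · obtain ⟨r, hr⟩ := nrm4 hν hT hΓ hT' hC hC' hk hq fin hε
    refine ⟨r, fun u hu => ?_⟩
    have e : BB (fun γ => l2 (q γ)) (fun γ => l1 (q γ)) r =
        BB (fun γ => l1 (q γ)) (fun γ => l2 (q γ)) r := by
      ext γ
      exact and_comm
    rw [e]
    exact hr u hu

variable {w : kˣ}

/-- **Wall of points.** -/
theorem wall1 (h : Adm ι a) (hk : LocK k) (hw : ‖(w : k)‖ < 1) (hq : PH q)
    (fin : ∀ C : ℝ, {γ | nm (q γ) ≤ C}.Finite) :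
    H486.Eng.WallIn (mT (H85.cdat ν hν) hT) (H34.Ind.pi (H85.cdat ν hν) (V := V) hT.adjV)
      (BdT (H85.cdat ν hν) hT) (msT (H85.cdat ν hν) hT) q (ι (B1 w)) where
  s12 := sys12 hν hT hΓ hT' hh (chains1 h hw).1 (chains1 h hw).2 hk hq fin
  s21 := sys21 hν hT hΓ hT' hh (chains1 h hw).1 (chains1 h hw).2 hk hq fin
  esc := esc_pow_inv_T hν hT hΓ hT' hh (SP.coc1 h hw)

/-- **Wall of lines.** -/
theorem wall2 (h : Adm ι a) (hk : LocK k) (hw : ‖(w : k)‖ < 1) (hq : PH q)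
    (fin : ∀ C : ℝ, {γ | nm (q γ) ≤ C}.Finite) :
    H486.Eng.WallIn (mT (H85.cdat ν hν) hT) (H34.Ind.pi (H85.cdat ν hν) (V := V) hT.adjV)
      (BdT (H85.cdat ν hν) hT) (msT (H85.cdat ν hν) hT) q (ι (B2 w)) where
  s12 := sys12 hν hT hΓ hT' hh (chains2 h hw).1 (chains2 h hw).2 hk hq fin
  s21 := sys21 hν hT hΓ hT' hh (chains2 h hw).1 (chains2 h hw).2 hk hq fin
  esc := esc_pow_inv_T hν hT hΓ hT' hh (SP.coc2 h hw)

end gen

/-! ### The amplified model -/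

section hh

open Vale.Agent.P092.H103 (AF)
open Vale.Agent.P092.H34.Ind (Xset)
open Vale.Agent.P092.H71.P (r1 r2 Sh'_cont Lg_cont adm_proper spr1_sh' spr1_lg spr2_lg₀ spr2_sh'₀)

open Vale.Agent.P092.H790.CTA (SIZEG)
open Vale.Agent.P092.SD (MsF UC)
open Vale.Agent.P092.H962 (HH PT V3 A3R B3R)
open Vale.Agent.P092.H725.SN (flt_Dq Dq_le Dq)

variable {k : Type} [NontriviallyNormedField k] [ProperSpace k] [MeasurableSpace k] [BorelSpace k]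
  {μ : Measure k} [μ.IsAddHaarMeasure]
  {E : Type} [Group E] [TopologicalSpace E] [IsTopologicalGroup E] [LocallyCompactSpace E]
  [SecondCountableTopology E] [T2Space E] [MeasurableSpace E] [BorelSpace E]
  {Γ : Subgroup E} [DiscreteTopology Γ] [Countable Γ] [MeasurableSpace (E ⧸ Γ)]
  [BorelSpace (E ⧸ Γ)] {ν : Measure (E ⧸ Γ)} [IsProbabilityMeasure ν]
  (hν : ∀ g : E, ν.map (fun x => g • x) = ν)
  (hΓ : ∀ g : Γ, g ≠ 1 → Set.Infinite {y : Γ | ∃ h, y = h * g * h⁻¹})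
  {Λ : Type} [Group Λ] [Countable Λ]
  (hΛ : ∀ s : Λ, s ≠ 1 → Set.Infinite {y : Λ | ∃ h, y = h * s * h⁻¹})
  {I : Type} [Fintype I] {α : Γ → (Ell2 (I × Λ) →L[ℂ] Ell2 (I × Λ))} (hα : AF α)
  {κ : Type} [Fintype κ] {ξ : κ → HH (PT α α α)}
  (hT : Tri (V3 hα hα hα) (A3R hα hα hα) (B3R hα hα hα) ξ)
  (hh : Hon (A3R hα hα hα) (B3R hα hα hα) ξ)
  {ι : S4 k →* E} {a : E →* PG k 4} {q : Γ → S4 k} {w : kˣ}

include hΓ hΛ in
theorem pic_HH [NoncompactSpace E] :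
    PicF (H34.Ind.pi (H85.cdat ν hν) (V := V3 hα hα hα) hT.adjV)
      (H34.Ind.lam (H85.cdat ν hν) (A3R hα hα hα))
      (Xset (H85.cdat ν hν) (HH (PT α α α)) ∪
        Set.range (H34.Ind.lam (H85.cdat ν hν) (B3R hα hα hα)))
      (H34.AmpE.nrm hν ξ) :=
  (RC.pic2F_HH hν hα hα hα hΓ hΛ (adjV3 hα) hT).leg₁

include hΓ hΛ hh in
theorem ms_HH :
    MsF (H34.Ind.lam (H85.cdat ν hν) (A3R hα hα hα))
      (Xset (H85.cdat ν hν) (HH (PT α α α)) ∪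
        Set.range (H34.Ind.lam (H85.cdat ν hν) (B3R hα hα hα)))
      (H34.AmpE.nrm hν ξ) (st (mT (H85.cdat ν hν) hT)) := by
  obtain ⟨m', m'', ζ, h'⟩ := H962.exists_tri' hα hα hα hΛ
  exact H458.HalfT.msF_E (H85.cdat ν hν) hT hh h' hΓ (RC.nrm_ne hT.ne)

theorem uc_HH (i : κ) : UC (H34.Ind.pi (H85.cdat ν hν) (V := V3 hα hα hα) hT.adjV)
      (Xset (H85.cdat ν hν) (HH (PT α α α)) ∪
        Set.range (H34.Ind.lam (H85.cdat ν hν) (B3R hα hα hα)))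
      (H34.AmpE.nrm hν ξ i) (st (mT (H85.cdat ν hν) hT)) := uc_T hν hT i

include hΓ hΛ hh in
/-- **Sizes, all `t`.** -/
theorem size_HH (hq : PH q) {b : E} (hb : LeviGap b) (i : κ) :
    SIZEG b (H34.Ind.pi (H85.cdat ν hν) (V := V3 hα hα hα) hT.adjV) (H34.AmpE.nrm hν ξ i)
      (st (mT (H85.cdat ν hν) hT)) fun γ => nm (q γ) := by
  have hM := H421.GrT.MskL.of_msF (ms_HH hν hΓ hΛ hα hT hh)
  exact H421.GrT.sz3_exp_exp hM (σ := fun γ => nm (q γ)) (H421.GrT.sz3_HH₁ hν hα hα hα hΓ hΛ (adjV3 hα) hT hM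
    (flt_Dq (q := fun γ => (q γ).1) hq)
    (fun J γ hγ => (le_max_left _ _).trans (Dq_le (q := fun γ => (q γ).1) hq J γ hγ)) hb i)

end hh

end Vale.Agent.P092.H21.P
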